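import Vale.Agent.P024.ALL.Spec
import Vale.Agent.P024.H114.Glue

/-!
Block (A) for all number fields.
-/

namespace Vale.Agent.P024.H539.ALL

open scoped NumberField
open IsDedekindDomain NumberField Vale.Agent.P024 Vale.Agent.P024.M4 Vale.Agent.P024.ALL

theorem coprime_pow_sub_one {r s : ℕ} (hr : 1 < r) (hs : 0 < s) : (r ^ s - 1).Coprime r := by
  have hrs : 1 < r ^ s := Nat.one_lt_pow hs.ne' hr
  have h3 : (r ^ s - 1).Coprime (r ^ s - 1 + 1) := by simp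
  rw [Nat.sub_add_cancel hrs.le] at h3
  exact h3.coprime_dvd_right (dvd_pow_self r hs.ne')

/-- The order of `r` modulo `r ^ s - 1` is `s`. -/
theorem modEq_exp {r s i j : ℕ} (hr : 1 < r) (hs : 0 < s) (h : r ^ i ≡ r ^ j [MOD r ^ s - 1]) :
    i ≡ j [MOD s] := by
  wlog hij : i ≤ j generalizing i j with H
  · exact (H h.symm (le_of_not_ge hij)).symm
  have hrs : 1 < r ^ s := Nat.one_lt_pow hs.ne' hr
  have h1 : r ^ s - 1 ∣ r ^ j - r ^ i := (Nat.modEq_iff_dvd' (Nat.pow_le_pow_right (by omega) hij)).1 h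
  obtain ⟨k, rfl⟩ := Nat.exists_eq_add_of_le hij
  have h2 : r ^ (i + k) - r ^ i = r ^ i * (r ^ k - 1) := by
    rw [pow_add, Nat.mul_sub, mul_one]
  rw [h2] at h1
  have hcop : (r ^ s - 1).Coprime (r ^ i) := (coprime_pow_sub_one hr hs).pow_right i
  have h4 := hcop.dvd_of_dvd_mul_left h1
  have h5 := Nat.gcd_eq_left h4
  rw [Nat.pow_sub_one_gcd_pow_sub_one] at h5
  have h6 : r ^ s.gcd k = r ^ s := by
    have h7 : 1 ≤ r ^ s.gcd k := Nat.one_le_pow _ _ (by omega)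
    omega
  have h7 := Nat.pow_right_injective (show 2 ≤ r by omega) h6
  have h8 : s ∣ k := Nat.gcd_eq_left_iff_dvd.1 h7
  have h9 : i + 0 ≡ i + k [MOD s] := Nat.ModEq.add_left i ((Nat.modEq_zero_iff_dvd.2 h8).symm)
  simpa using h9

theorem propA.{u, v} : PropA.{u, v} := by
  intro E₁ E₂ _ _ _ _ _ _ _ hE₂ F _ a ha hao v r₂ hr₂ hhit s hs
  obtain ⟨O, O₂, hO, hO₂, hOv, hmap, hr₂O⟩ := hhit
  have : IsGalois ℚ E₁ := H114.isGalois_rat E₁
  have hE₁ : SolvablyClosed E₁ := H114.solvablyClosed_of_isAlgClosed E₁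
  obtain ⟨σ, hσ, hσ'⟩ := exists_frob O hO v hOv
  have hcard : Nat.card (𝓞 F ⧸ v.asIdeal) = Ideal.absNorm v.asIdeal := by
    rw [Ideal.absNorm_apply]; rfl
  rw [hcard] at hσ'
  obtain ⟨w, hw⟩ := exists_center (K := ℚ) O₂ hO₂
  obtain ⟨z, hz, hz'⟩ := exists_frob O₂ hO₂ w hw
  have hr₂w : (r₂ : 𝓞 ℚ) ∈ w.asIdeal := by
    rw [hw]
    simpa using hr₂O
  have hcard₂ : Nat.card (𝓞 ℚ ⧸ w.asIdeal) = r₂ := by
    rw [← H114.absNorm_rat w hr₂ hr₂w, Ideal.absNorm_apply]; rfl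
  rw [hcard₂] at hz'
  have hs0 := hs.pos
  have hrs : 1 < r₂ ^ s := Nat.one_lt_pow hs0.ne' hr₂.one_lt
  have hcop : (r₂ ^ s - 1).Coprime r₂ := coprime_pow_sub_one hr₂.one_lt hs0
  obtain ⟨-, m, hm, -⟩ := H114.cyc O₂ hO₂ hr₂ hr₂O (a σ) z (hmap σ hσ) hz hz' hcop
  refine ⟨m, fun l hl hl2 hlr₂ hsl hv => ?_⟩
  obtain ⟨-, j, hj, -⟩ := H114.cyc O₂ hO₂ hr₂ hr₂O (a σ) z (hmap σ hσ) hz hz'
    (n := l * (r₂ ^ s - 1)) (Nat.Coprime.mul_left ((Nat.coprime_primes hl.out hr₂).2 hlr₂) hcop)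
  -- the exponents agree modulo `s`
  have hjm : j ≡ m [MOD s] := by
    obtain ⟨ξ, hξ⟩ := hE₂.exists_primitiveRoot (r₂ ^ s - 1) (by omega)
    have h1 := hm ξ hξ.pow_eq_one
    have h2 := hj ξ (by rw [mul_comm, pow_mul, hξ.pow_eq_one, one_pow])
    rw [h2, rootPow_eq_iff_modEq hξ _ _ (by omega)] at h1
    exact modEq_exp hr₂.one_lt hs0 h1
  -- the relation modulo `l`
  have hrel : ((Ideal.absNorm v.asIdeal : ℕ) : ZMod l) = (r₂ : ZMod l) ^ j := by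
    have h1 := H114.cyc_alive hE₁ hE₂ a ha hl.out hl2 v hv O hO hOv σ hσ 1
      (Ideal.absNorm v.asIdeal) (fun ζ hζ => by
        refine acts_on_root O σ _ hσ' (l ^ 1) ?_ ζ hζ
        exact natCast_pow_notMem_nonunits hOv hv.1 1)
    obtain ⟨ξ, hξ⟩ := hE₂.exists_primitiveRoot l hl.out.pos
    have h2 := h1 ξ (by rw [pow_one]; exact hξ.pow_eq_one)
    have h3 := hj ξ (by rw [pow_mul, hξ.pow_eq_one, one_pow])
    rw [h2, rootPow_eq_iff_modEq hξ _ _ hl.out.pos] at h3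
    have h4 := (ZMod.natCast_eq_natCast_iff _ _ _).mpr h3
    push_cast at h4
    exact h4
  have hr0 : (r₂ : ZMod l) ≠ 0 := by
    rw [Ne, ZMod.natCast_eq_zero_iff]
    intro h
    exact hlr₂ ((Nat.prime_dvd_prime_iff_eq hl.out hr₂).1 h)
  rw [hrel]
  rcases le_total m j with hmj | hmj
  · obtain ⟨t, ht⟩ := (Nat.modEq_iff_dvd' hmj).1 hjm.symm
    refine ⟨(r₂ : ZMod l) ^ t, ?_⟩
    rw [← pow_mul, ← pow_add]
    congr 1
    rw [mul_comm t s, ← ht]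
    omega
  · obtain ⟨t, ht⟩ := (Nat.modEq_iff_dvd' hmj).1 hjm
    refine ⟨((r₂ : ZMod l) ^ t)⁻¹, ?_⟩
    rw [inv_pow, ← pow_mul, mul_comm t s, ← ht, eq_mul_inv_iff_mul_eq₀ (pow_ne_zero _ hr0),
      ← pow_add]
    congr 1
    omega

end Vale.Agent.P024.H539.ALL
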